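import Vale.Agent.P235.ST.H317.Defs2
import Vale.Agent.P235.ST.H119.Clock
import Vale.Agent.P235.ST.H188.RowsPlan
import Vale.Agent.P235.ST.H611.Cost

/-! P235, (ST) O(1), row r11: one stretch of a walk in the piece lemma. -/

namespace Vale.Agent.P235.STO.H35

open SimpleGraph
open H119 (reach_of_walk D_lip D_M)
open H188 (uns_le nxt_scale nxt_attain)
open H611 (cost_append vert hop_cost)

variable {V : Type}

theorem cost_nonneg {G : SimpleGraph V} (w : V → ℝ) {x y : V} (p : G.Walk x y) :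
    0 ≤ cost w p := by
  induction p with
  | nil => simp [cost]
  | cons h p ih => simp only [cost]; positivity

/-- a shortest nonempty prefix with a property, or none -/
theorem first_prefix {G : SimpleGraph V} {a b : V} (g : G.Walk a b)
    (P : ∀ c, G.Walk a c → Prop) :
    (∀ c (g1 : G.Walk a c) (g2 : G.Walk c b), g = g1.append g2 → 0 < g1.length → ¬ P c g1) ∨
    ∃ (c : V) (g1 : G.Walk a c) (g2 : G.Walk c b), g = g1.append g2 ∧ 0 < g1.length ∧ P c g1 ∧
      ∀ c' (g1' : G.Walk a c') (g2' : G.Walk c' b), g = g1'.append g2' → 0 < g1'.length →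
        g1'.length < g1.length → ¬ P c' g1' := by
  classical
  by_cases h : ∃ n, ∃ (c : V) (g1 : G.Walk a c) (g2 : G.Walk c b),
      g1.length = n ∧ g = g1.append g2 ∧ 0 < g1.length ∧ P c g1
  · right
    obtain ⟨c, g1, g2, hn, h1, h2, h3⟩ := Nat.find_spec h
    refine ⟨c, g1, g2, h1, h2, h3, fun c' g1' g2' e1 e2 e3 e4 => ?_⟩
    exact Nat.find_min h (m := g1'.length) (by rw [← hn]; exact e3) ⟨c', g1', g2', rfl, e1, e2, e4⟩
  · left
    intro c g1 g2 e1 e2 e3
    exact h ⟨_, c, g1, g2, rfl, e1, e2, e3⟩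

theorem prefix_at {G : SimpleGraph V} {a b c : V} {g : G.Walk a b} {g1 : G.Walk a c}
    {g2 : G.Walk c b} (h : g = g1.append g2) {x : V} (hx : x ∈ g1.support) (hxa : x ≠ a)
    (hxc : x ≠ c) :
    ∃ (p1 : G.Walk a x) (p2 : G.Walk x c), g1 = p1.append p2 ∧ g = p1.append (p2.append g2) ∧
      0 < p1.length ∧ p1.length < g1.length := by
  classical
  refine ⟨g1.takeUntil x hx, g1.dropUntil x hx, (g1.take_spec hx).symm, ?_, ?_, ?_⟩
  · rw [Walk.append_assoc, g1.take_spec hx]; exact h
  · rcases Nat.eq_zero_or_pos (g1.takeUntil x hx).length with h0 | h0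
    · exact absurd (Walk.eq_of_length_eq_zero h0).symm hxa
    · exact h0
  · exact Walk.length_takeUntil_lt_length hx hxc

variable (W : LWorld V)

theorem abs_u_le {x y : V} (g : W.G.Walk x y) : |W.u x - W.u y| ≤ g.length := by
  induction g with
  | nil => simp
  | @cons a b c h p ih =>
    have h1 := W.unit _ _ h
    have h2 : |W.u a - W.u c| ≤ |W.u a - W.u b| + |W.u b - W.u c| := abs_sub_le _ _ _
    rw [Walk.length_cons]
    push_cast
    linarith

theorem abs_u_le_d (x y : V) : |(W.u x : ℝ) - W.u y| ≤ W.d x y := by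
  obtain ⟨q, hq⟩ := W.conn.exists_walk_length_eq_dist x y
  have h := abs_u_le W q
  rw [hq] at h
  unfold LWorld.d
  exact_mod_cast h

theorem d_nonneg (x y : V) : 0 ≤ W.d x y := by unfold LWorld.d; positivity

theorem d_comm (x y : V) : W.d x y = W.d y x := by
  unfold LWorld.d; rw [SimpleGraph.dist_comm]

theorem d_tri (x y z : V) : W.d x z ≤ W.d x y + W.d y z := by
  unfold LWorld.d
  exact_mod_cast W.conn.dist_triangle

theorem d_le_length {x y : V} (g : W.G.Walk x y) : W.d x y ≤ g.length := by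
  unfold LWorld.d
  exact_mod_cast SimpleGraph.dist_le g

theorem d_of_L {p a b : V} (hp : p ∈ W.N) (ha : a ∈ W.L p) (hb : b ∈ W.L p) :
    W.d a b ≤ |(W.u a : ℝ) - W.u b| := by
  rcases le_total (W.u a) (W.u b) with h | h
  · obtain ⟨q, hq, -⟩ := W.L_path p hp a ha b hb h
    have h1 := d_le_length W q
    have h3 : (q.length : ℝ) = (W.u b : ℝ) - W.u a := by
      exact_mod_cast congrArg (fun t : ℤ => (t : ℝ)) hq
    rw [abs_sub_comm]
    exact h1.trans (h3.le.trans (le_abs_self _))
  · obtain ⟨q, hq, -⟩ := W.L_path p hp b hb a ha h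
    have h1 := d_le_length W q
    have h3 : (q.length : ℝ) = (W.u a : ℝ) - W.u b := by exact_mod_cast congrArg (fun t : ℤ => (t : ℝ)) hq
    rw [d_comm]
    exact h1.trans (h3.le.trans (le_abs_self _))

theorem band_near {k m : ℕ} {a x : V} (h6 : 6 * 2 ^ k ≤ W.pos k m a) (h9 : W.pos k m a ≤ 9 * 2 ^ k)
    (hx : |W.u x - W.u a| ≤ 2 ^ k) :
    W.bi k m x = W.bi k m a ∧ W.pos k m x = W.pos k m a + (W.u x - W.u a) := by
  have hH : (0 : ℤ) < 2 ^ k := by positivity
  have hth : (0 : ℤ) < th k := by unfold th; positivity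
  have e : W.pos k m a + th k * W.bi k m a = W.u a + m * 2 ^ k := by
    unfold LWorld.pos LWorld.bi
    exact Int.emod_add_mul_ediv _ _
  have h1 := abs_le.1 hx
  have key : (W.u x + m * 2 ^ k) / th k = W.bi k m a ∧
      (W.u x + m * 2 ^ k) % th k = W.pos k m a + (W.u x - W.u a) := by
    rw [Int.ediv_emod_unique hth]
    refine ⟨by linarith, by linarith, ?_⟩
    unfold th
    linarith
  exact key

variable [Fintype V]

theorem centre {ρ : V → ℝ} (hρ : W.Scale ρ) {p a b : V} {k m : ℕ} {g : W.G.Walk a b}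
    (hr : W.Reg ρ p k m g) (ha : a ∈ W.N) (hpos : 0 < W.nxt ρ a) :
    ∃ z y, z ∈ W.N ∧ y ∈ W.N ∧ W.u z = W.u y ∧ W.idx z ≤ W.idx y ∧ 0 < W.d z y ∧
      W.nxt ρ a ≤ W.d z y ∧ W.d z y ≤ 24 * d1 * ρ p ∧ W.d a z ≤ kap * W.d z y ∧
      ∀ c ∈ g.support, c ∈ W.N → W.idx c ≤ W.idx y →
        (W.D k m c : ℝ) ≤ W.D k m a + (kap + cp) * W.d z y + |(W.u c : ℝ) - W.u z| := by
  classical
  obtain ⟨z, y, hu, he⟩ := nxt_attain W hpos
  have hul := uns_le W hρ hu
  obtain ⟨hz, hy, huz, hid, hr0, h2, hns⟩ := hu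
  have hk : kap = 1 / 2 ^ 22 := rfl
  have hd1 : d1 = 1 / 2 ^ 100 := rfl
  have hdl : dl = 1 / 2 ^ 25 := rfl
  have hr0' : r0 = 2 ^ 90 := rfl
  have ht0 : 0 < W.d z y := by rw [hr0'] at hr0; linarith [show (0:ℝ) < 2 ^ 90 by positivity]
  have hka : W.d a z ≤ kap * W.d z y := by
    have h1 : W.d a z / kap ≤ W.d z y := by linarith
    rw [div_le_iff₀ (by rw [hk]; positivity)] at h1
    linarith
  have hball := hr.ball a g.start_mem_support
  have hpz : W.d p z ≤ kap * ρ p / 4 + 1 + kap * W.d z y := (d_tri W p a z).trans (by linarith)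
  have hl := abs_le.1 (hρ.lip p z)
  have hpz' : W.d p z / kap ≤ ρ p / 4 + 2 ^ 22 + W.d z y := by
    rw [div_le_iff₀ (by rw [hk]; positivity)]
    refine hpz.trans (le_of_eq ?_)
    rw [hk]; ring
  have hbig := hr.big
  have hrz : ρ z ≤ 5 / 4 * ρ p + 2 ^ 22 + W.d z y := by linarith [hl.1]
  have hrz' : ρ p - ρ p / 4 - 2 ^ 22 - W.d z y ≤ ρ z := by linarith [hl.2]
  have ht : W.d z y ≤ 24 * d1 * ρ p := by
    rw [hd1] at hul ⊢
    have : W.d z y ≤ 16 * (1 / 2 ^ 100) * (5 / 4 * ρ p + 2 ^ 22 + W.d z y) :=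
      hul.trans (mul_le_mul_of_nonneg_left hrz (by positivity))
    linarith
  have hin : inList (ρ z) k := by
    refine ⟨le_trans ?_ hr.lo, hr.hi.trans ?_⟩
    · rw [hd1] at ht ⊢
      have : (1:ℝ) / 2 ^ 100 * ρ z ≤ 1 / 2 ^ 100 * (5 / 4 * ρ p + 2 ^ 22 + W.d z y) :=
        mul_le_mul_of_nonneg_left hrz (by positivity)
      linarith
    · rw [hd1] at ht
      have : (2:ℝ) / 3 * ρ p ≤ ρ z := by linarith
      rw [hdl]
      linarith
  -- heights near `a`
  have hH : (W.d a z) ≤ (2 : ℝ) ^ k := by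
    have h1 := hr.lo
    have h3 : ((th k : ℤ) : ℝ) = 16 * 2 ^ k := by unfold th; push_cast; ring
    rw [h3] at h1
    have h4 : W.d a z ≤ kap * (6 * 2 ^ k) :=
      hka.trans (mul_le_mul_of_nonneg_left (by linarith) (by rw [hk]; positivity))
    rw [hk] at h4
    have : (0:ℝ) < 2 ^ k := by positivity
    linarith
  have hband := hr.band a g.start_mem_support
  obtain ⟨q, hq⟩ := W.conn.exists_walk_length_eq_dist a z
  have hqH : (q.length : ℤ) ≤ 2 ^ k := by
    have : (q.length : ℝ) ≤ 2 ^ k := by rw [hq]; exact hH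
    exact_mod_cast this
  have hnear : ∀ x ∈ q.support, |W.u x - W.u a| ≤ 2 ^ k := by
    intro x hx
    rw [abs_sub_comm]
    refine (abs_u_le W (q.takeUntil x hx)).trans (le_trans ?_ hqH)
    exact_mod_cast q.length_takeUntil_le_length hx
  have hreach := reach_of_walk W k m q (fun x hx =>
    (band_near W hband.1 hband.2 (hnear x hx)).1)
  have hzb := band_near W hband.1 hband.2 (hnear z q.end_mem_support)
  have hzn := abs_le.1 (hnear z q.end_mem_support)
  have hmid : W.mid k m z := by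
    unfold LWorld.mid
    rw [hzb.2]
    have : (0:ℤ) < 2 ^ k := by positivity
    constructor <;> linarith [hband.1, hband.2]
  have hnot := hns k m hr.m16 hin
  have hRzy : (W.Bg k m).Reachable z y := by
    by_contra h
    exact hnot ⟨hmid, Or.inl h⟩
  have hDy : (W.D k m y : ℝ) - W.D k m z < cp * W.d z y := by
    by_contra h
    exact hnot ⟨hmid, Or.inr (not_lt.1 h)⟩
  have hDz : (W.D k m z : ℝ) ≤ W.D k m a + W.d a z := by
    have h1 := D_lip W k m hreach.1
    have h2 := hreach.2
    rw [hq] at h2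
    have h3 : (W.D k m z : ℤ) ≤ W.D k m a + W.G.dist a z := by
      have : (((W.Bg k m).dist a z : ℕ) : ℤ) ≤ W.G.dist a z := by exact_mod_cast h2
      linarith
    unfold LWorld.d
    exact_mod_cast h3
  refine ⟨z, y, hz, hy, huz, hid, ht0, ?_, ht, hka, ?_⟩
  · have : 0 ≤ W.d a z / kap := div_nonneg (d_nonneg W a z) (by rw [hk]; positivity)
    linarith
  · intro c hc hcN hcy
    have hRac := (reach_of_walk W k m (g.takeUntil c hc) (fun x hx =>
      hr.same x (g.support_takeUntil_subset_support hc hx))).1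
    have hRcy : (W.Bg k m).Reachable c y := (hRac.symm.trans hreach.1).trans hRzy
    have h1 := D_M W k m hcN hy hRcy hcy
    have h2 : (W.D k m c : ℝ) ≤ W.D k m y + |(W.u c : ℝ) - W.u y| := by exact_mod_cast h1
    rw [← huz] at h2
    linarith

/-- one stretch -/
theorem stretch {ρ w : V → ℝ} (hρ : W.Scale ρ) (hw : W.Inv (W.nxt ρ) w) {p a b : V} {k m : ℕ}
    (g : W.G.Walk a b) (hg : g.IsPath) (hr : W.Reg ρ p k m g) (ha : a ∈ W.N) (hb : b ∈ W.N)
    (hne : a ≠ b) :
    (W.D k m b : ℝ) ≤ W.D k m a + (5 / 4) * cost w g + 64 * d1 * ρ p ∨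
    ∃ (c : V) (g1 : W.G.Walk a c) (g2 : W.G.Walk c b), g = g1.append g2 ∧ 0 < g1.length ∧
      c ∈ W.N ∧ (W.D k m c : ℝ) ≤ W.D k m a + (5 / 4) * cost w g1 := by
  classical
  have hlen : 0 < g.length := by
    rcases Nat.eq_zero_or_pos g.length with h | h
    · exact absurd (Walk.eq_of_length_eq_zero h) hne
    · exact h
  have hk : kap = 1 / 2 ^ 22 := rfl
  have hcp : cp = 1 / 2 ^ 21 := rfl
  have he1 : e1 = 1 / 2 ^ 120 := rfl
  have hbb : bb = 1 / 2 ^ 14 := rfl
  have hc2 : c2 = 1 / 2 ^ 10 := rfl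
  have hC1 : C1 = 2 ^ 11 := rfl
  have hd1 : d1 = 1 / 2 ^ 100 := rfl
  by_cases hS : W.nxt ρ a ≤ 4 / kap
  · -- hop to the next lined vertex
    right
    rcases first_prefix g (fun c _ => c ∈ W.N) with h | ⟨c, g1, g2, e, hl, hc, hmin⟩
    · exact absurd hb (h b g .nil (by simp) hlen)
    · refine ⟨c, g1, g2, e, hl, hc, ?_⟩
      have hg1 : g1.IsPath := by rw [e] at hg; exact hg.of_append_left
      have hin : ∀ z ∈ g1.support, z ≠ a → z ≠ c → z ∉ W.N := by
        intro z hz hza hzc
        obtain ⟨p1, p2, -, e2, e3, e4⟩ := prefix_at e hz hza hzc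
        exact hmin z p1 _ e2 e3 e4
      have h1 := hop_cost W (nxt_scale W ρ) hw g1 hg1 hin hS
      have h2 := reach_of_walk W k m g1 (fun x hx => hr.same x (by
        rw [e, Walk.mem_support_append_iff]; exact Or.inl hx))
      have h3 := D_lip W k m h2.1
      have h4 : (W.D k m c : ℤ) ≤ W.D k m a + g1.length := by
        have : (((W.Bg k m).dist a c : ℕ) : ℤ) ≤ g1.length := by exact_mod_cast h2.2
        linarith
      have h5 : (W.D k m c : ℝ) ≤ W.D k m a + g1.length := by exact_mod_cast h4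
      linarith
  · push Not at hS
    have hpos : 0 < W.nxt ρ a := lt_trans (by rw [hk]; positivity) hS
    obtain ⟨z, y, hz, hy, huz, hid, ht0, hnt, ht, haz, hD⟩ := centre W hρ hr ha hpos
    set t := W.d z y with htdef
    -- vertices near `z` are not on the line of `y`
    have hfar : ∀ x, W.d z x ≤ kap * t → x ∉ W.L y := by
      intro x hx hxL
      have h1 := d_of_L W hy hxL (W.mem_L y hy)
      rw [← huz] at h1
      have h2 := abs_u_le_d W x z
      rw [d_comm W x z] at h2
      have h3 := d_tri W z x y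
      rw [hk] at hx
      linarith
    have hza : W.d z a ≤ kap * t := by rw [d_comm]; exact haz
    have haL : a ∉ W.L y := hfar a hza
    have hia : W.idx a ≤ W.idx y := by
      by_contra hlt
      push Not at hlt
      obtain ⟨q, hq⟩ := W.conn.exists_walk_length_eq_dist z a
      obtain ⟨x, hx, hxL⟩ := W.sep y hy z hz a ha hid hlt.le q
      refine hfar x ?_ hxL
      refine le_trans (d_le_length W (q.takeUntil x hx)) (le_trans ?_ hza)
      unfold LWorld.d
      rw [← hq]
      exact_mod_cast q.length_takeUntil_le_length hx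
    have huaz := abs_u_le_d W a z
    rcases first_prefix g (fun c g1 => c ∈ W.N ∧ (c ∈ W.L y ∨
        ∃ x ∈ g1.support, bb * t ≤ |(W.u x : ℝ) - W.u z|)) with h | ⟨c, g1, g2, e, hl, hc, hmin⟩
    · -- no stop
      left
      have hnb := h b g .nil (by simp) hlen
      have hbL : b ∉ W.L y := fun h' => hnb ⟨hb, Or.inl h'⟩
      have hbz : |(W.u b : ℝ) - W.u z| < bb * t := by
        by_contra h'
        exact hnb ⟨hb, Or.inr ⟨b, g.end_mem_support, not_lt.1 h'⟩⟩
      have hib : W.idx b ≤ W.idx y := by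
        by_contra hlt
        push Not at hlt
        obtain ⟨x, hx, hxL⟩ := W.sep y hy a ha b hb hia hlt.le g
        have hxa : x ≠ a := fun h' => haL (h' ▸ hxL)
        have hxb : x ≠ b := fun h' => hbL (h' ▸ hxL)
        obtain ⟨p1, p2, -, e2, e3, e4⟩ := prefix_at (g := g) (g2 := .nil) (g1 := g) (by simp) hx hxa hxb
        exact h x p1 _ e2 e3 ⟨(W.L_sub y hy x hxL).1, Or.inl hxL⟩
      have h1 := hD b g.end_mem_support hb hib
      have h2 := cost_nonneg w g
      rw [hk, hcp] at h1
      rw [hbb] at hbz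
      linarith
    · right
      refine ⟨c, g1, g2, e, hl, hc.1, ?_⟩
      have hcg : c ∈ g.support := by
        rw [e, Walk.mem_support_append_iff]; exact Or.inl g1.end_mem_support
      have hic : W.idx c ≤ W.idx y := by
        by_contra hlt
        push Not at hlt
        obtain ⟨x, hx, hxL⟩ := W.sep y hy a ha c hc.1 hia hlt.le g1
        have hxa : x ≠ a := fun h' => haL (h' ▸ hxL)
        by_cases hxc : x = c
        · have := (W.L_sub y hy x hxL).2
          rw [hxc] at this
          exact absurd this (not_le.2 hlt)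
        · obtain ⟨p1, p2, -, e2, e3, e4⟩ := prefix_at e hx hxa hxc
          exact hmin x p1 _ e2 e3 e4 ⟨(W.L_sub y hy x hxL).1, Or.inl hxL⟩
      have h1 := hD c hcg hc.1 hic
      by_cases hβ : ∃ x ∈ g1.support, bb * t ≤ |(W.u x : ℝ) - W.u z|
      · -- large vertical deviation
        obtain ⟨x, hx, hxt⟩ := hβ
        have v1 := vert W (nxt_scale W ρ) hw g1
        have v2 := vert W (nxt_scale W ρ) hw (g1.takeUntil x hx)
        have v3 : cost w (g1.takeUntil x hx) ≤ cost w g1 := by
          conv_rhs => rw [← g1.take_spec hx, cost_append]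
          linarith [cost_nonneg w (g1.dropUntil x hx)]
        have a1 : |(W.u c : ℝ) - W.u z| ≤ |(W.u c : ℝ) - W.u a| + |(W.u a : ℝ) - W.u z| :=
          abs_sub_le _ _ _
        have a2 : |(W.u x : ℝ) - W.u z| ≤ |(W.u x : ℝ) - W.u a| + |(W.u a : ℝ) - W.u z| :=
          abs_sub_le _ _ _
        rw [hk, hcp] at h1
        rw [hbb] at hxt
        rw [hk] at haz
        rw [he1] at v1 v2
        linarith
      · -- crossing of the line of `y`
        push Not at hβ
        have hcL : c ∈ W.L y := by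
          rcases hc.2 with h' | ⟨x, hx, hxt⟩
          · exact h'
          · exact absurd hxt (not_le.2 (hβ x hx))
        have hcz := hβ c g1.end_mem_support
        have h2 := d_of_L W hy hcL (W.mem_L y hy)
        rw [← huz] at h2
        have h3 := d_tri W z a y
        have h4 := d_tri W a c y
        have hac : 9 / 10 * t ≤ W.d a c := by
          rw [hk] at hza
          rw [hbb] at hcz
          linarith
        have h5 := hw.lb a c g1 (by
          rw [hC1, hd1]
          linarith)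
        rw [hc2] at h5
        rw [hk, hcp] at h1
        rw [hbb] at hcz
        linarith

end Vale.Agent.P235.STO.H35
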